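import Crest.Agent.X212.Gnk31.Lop
import Crest.Agent.X212.Rinv39.Rd

/-!
# Row 212, RAD-WGT (helper71): the weighted problem at function level
-/

set_option autoImplicit false
set_option linter.unusedSectionVars false
noncomputable section
open scoped Manifold ContDiff Topology InnerProductSpace
open MeasureTheory Set Function Filter Module Real

namespace Crest.Agent.X212.Wgt71
open An An.Pre Sob92 Ell97 Rad94 Ulc97 Gnk31
open M (Mf pm)
open Fred93 (Fr)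

/-- weak solutions are strong -/
theorem weak_reg {X Y : ℕ → Type*} [∀ k, NormedAddCommGroup (X k)] [∀ k, InnerProductSpace ℝ (X k)]
    [∀ k, NormedAddCommGroup (Y k)] [∀ k, InnerProductSpace ℝ (Y k)] (P : Pair X Y) {y : X 0}
    {f : Y 0} (h : ∀ w, ⟪P.Ls 0 w, y⟫_ℝ = ⟪P.j 0 w, f⟫_ℝ) : ∃ x, P.i 0 x = y := by
  obtain ⟨a, ha⟩ := P.surjX 0 y
  obtain ⟨b, hb⟩ := P.surjY 0 f
  have e1 : y = P.i 0 (P.i 1 a + P.Ls 1 b) - P.Ls 0 (P.j 1 b - P.L 1 a) := by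
    rw [← ha, map_add, map_sub, P.Lsj]; abel
  have e2 : f = P.L 0 (P.i 1 a + P.Ls 1 b) + P.j 0 (P.j 1 b - P.L 1 a) := by
    rw [← hb, map_add, map_sub, P.Li]; abel
  generalize P.i 1 a + P.Ls 1 b = x at e1 e2
  generalize P.j 1 b - P.L 1 a = w at e1 e2
  have h1 := h w
  rw [e1, e2, inner_sub_right, inner_add_right, real_inner_comm (P.i 0 x), ← P.adj,
    real_inner_comm (P.L 0 x)] at h1
  have h2 := real_inner_self_nonneg (x := P.Ls 0 w)
  have h3 := real_inner_self_nonneg (x := P.j 0 w)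
  have h4 : P.Ls 0 w = 0 := real_inner_self_nonpos.1 (by linarith)
  exact ⟨x, by rw [e1, h4, sub_zero]⟩

section abs
variable {E F : Type*} [NormedAddCommGroup E] [NormedSpace ℝ E] [CompleteSpace E]
  [NormedAddCommGroup F] [NormedSpace ℝ F] [CompleteSpace F]

theorem bd_of_inj {T : E →L[ℝ] F} (h : T.IsFredholm) (hi : ∀ x, T x = 0 → x = 0) :
    ∃ c > 0, ∀ x, ‖x‖ ≤ c * ‖T x‖ := by
  obtain ⟨P, C, hC, -, h1⟩ := Fred93.exists_est h
  refine ⟨C, hC, fun x => ?_⟩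
  have := h1 x
  rwa [show P x = 0 from Subtype.ext (hi _ (P x).2), norm_zero, add_zero] at this

theorem ex_ker {T : E →L[ℝ] F} {n : ℤ} (h : Fr T n) (hn : 0 < n) : ∃ x, T x = 0 ∧ x ≠ 0 := by
  by_contra hc
  push Not at hc
  exact (h.nonpos_of_inj ((injective_iff_map_eq_zero _).2 hc)).not_gt hn

end abs

section gen
variable {E : Type} [NormedAddCommGroup E] [NormedSpace ℝ E] [FiniteDimensional ℝ E]
  [MeasurableSpace E] [BorelSpace E]
  {HM : Type} [TopologicalSpace HM] {I : ModelWithCorners ℝ E HM} [I.Boundaryless]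
  {M : Type} [TopologicalSpace M] [ChartedSpace HM M] [IsManifold I ∞ M]
  [MeasurableSpace M] [T2Space M] [BorelSpace M] [SecondCountableTopology M]
  {ι : Type} [Fintype ι]
  {V : Type} [NormedAddCommGroup V] [InnerProductSpace ℝ V] [FiniteDimensional ℝ V]
  {W : Type} [NormedAddCommGroup W] [InnerProductSpace ℝ W] [FiniteDimensional ℝ W]
  {F : An.Fr I M ι} {A : Op M ι V W} {C C' : ℕ → ℝ}

/-- **The graph norm controls one derivative.** -/
theorem gr_of (hF : F.Tame C) (hA : A.Good F C') (hc : A.Cliff F) {u : M → V} (hu : Sm I u)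
    (hp : ∀ y, A.p y (u y) = u y) (hL : MemLp u 2 F.μ) (hL' : MemLp (A.app F u) 2 F.μ) :
    ∃ x : F.H 1 A.p, Is F.toPre 1 A.p x u := by
  have := FiniteDimensional.complete ℝ V
  have := FiniteDimensional.complete ℝ W
  obtain ⟨y, hy⟩ := exists_Is (k := 0) (Exh.of_tame hF) hu hL hp
  obtain ⟨f, hf⟩ := exists_Is (k := 0) (Exh.of_tame hF) (sm_app hA hu) hL' (q_app hA u)
  obtain ⟨_, hA'⟩ := good_adj hF hA
  obtain ⟨x, h1⟩ := weak_reg (par hF hA hc) (y := y) (f := f) fun w => by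
    change ⟪(A.adj F).H F 0 w, y⟫_ℝ = ⟪F.incl 1 0 A.q w, f⟫_ℝ
    induction w using H_ind with
    | hP => exact isClosed_eq (by fun_prop) (by fun_prop)
    | h s =>
      obtain ⟨χ, s2, c2, -, -, e2⟩ := Met55.exists_cut (I := I) s.2.2.1.isCompact isOpen_univ
        (subset_univ _)
      have k := adj_ip hA ⟨fun y => χ y • u y, s2.smul hu, c2.smul_right, fun y => by
        rw [map_smul, hp]⟩ (toT _ s)
      refine (congrArg (⟪·, y⟫_ℝ) (H_toH hA' 0 s)).trans ?_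
      refine Eq.trans ?_ (congrArg (⟪·, f⟫_ℝ) (incl_toH zero_le_one s)).symm
      rw [real_inner_comm, ← incl_self y, real_inner_comm f, ← incl_self f]
      refine (hy.inner_toH _).trans (Eq.trans ?_ (hf.inner_toH _).symm)
      refine (integral_congr_ae (.of_forall fun z => ?_)).trans (k.symm.trans
        (integral_congr_ae (.of_forall fun z => ?_)))
      · by_cases hz : z ∈ tsupport s.1
        · simp [(e2 z hz).self_of_nhds, toT, tst]
        · have : (A.adj F).app F s.1 z = 0 :=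
            image_eq_zero_of_notMem_tsupport fun k => hz (tsupport_op _ _ _ k)
          simp [toT, tst, this]
      · by_cases hz : z ∈ tsupport s.1
        · simp [app_smul s2 hu, sy, (e2 z hz).self_of_nhds, toT, tst,
            fun a => show F.D a χ z = 0 from (dv_congr (e2 z hz)).trans (congrFun (dv_const 1) z)]
        · simp [toT, tst, image_eq_zero_of_notMem_tsupport hz]
  exact ⟨x, Is.of_incl zero_le_one (by rw [show F.incl 1 0 A.p x = y from h1]; exact hy)⟩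

end gen

variable {κ lam A : Type} [Fintype κ] [Fintype lam] [Fintype A] {X : Mf 4}
  {N V W Z : Type} [NormedAddCommGroup N] [InnerProductSpace ℝ N]
  [NormedAddCommGroup V] [InnerProductSpace ℝ V] [FiniteDimensional ℝ V]
  [NormedAddCommGroup W] [InnerProductSpace ℝ W] [FiniteDimensional ℝ W]
  [NormedAddCommGroup Z] [NormedSpace ℝ Z] [FiniteDimensional ℝ Z]
  {g : Gm X κ lam A} {L : Lop g V W} {l ϖ ϖ' : A → ℝ} {R : X.M → V →L[ℝ] W} {ℓ : (X.M → V) → Z}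
  {c : ℝ} {u : X.M → V} {f : X.M → N} {s : A} {τ : ℝ}

variable (g) in
/-- multiplication by the weight -/
abbrev ww (ϖ : A → ℝ) (f : X.M → N) : X.M → N := fun y => wf g ϖ y • f y

theorem ww_eq (ϖ : A → ℝ) (f : X.M → N) :
    ww g ϖ f = Rinv39.ew (Rinv39.ph g 0 fun s τ => pr τ * -ϖ s) f :=
  funext fun y => by simp [ww, wf, Rinv39.ew, Rinv39.ph]

theorem wf_pos (ϖ : A → ℝ) (x : X.M) : 0 < wf g ϖ x := exp_pos _

theorem wf_neg (ϖ : A → ℝ) (x : X.M) : wf g ϖ x * wf g (-ϖ) x = 1 := by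
  rw [wf, wf, ← exp_add, Gm.rd, Gm.rd, ← Finset.sum_add_distrib]
  simp

theorem ww_neg (ϖ : A → ℝ) (f : X.M → N) : ww g ϖ (ww g (-ϖ) f) = f := funext fun y => by
  simp only [ww, smul_smul, wf_neg, one_smul]

theorem wf_cor {x : X.M} (hx : x ∈ g.cor 0) : wf g ϖ x = 1 := by
  rw [wf, rd_cor (rd_pr _) hx, exp_zero]

theorem pr_nn (τ : ℝ) : 0 ≤ pr τ := by
  rcases le_total τ 0 with h | h
  · exact (pr_zero h).ge
  · exact intervalIntegral.integral_nonneg h fun t _ => smoothTransition.nonneg t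

theorem wf_anti (h : ϖ' ≤ ϖ) (x : X.M) : wf g ϖ x ≤ wf g ϖ' x :=
  exp_le_exp.2 (Finset.sum_le_sum fun s _ =>
    mul_le_mul_of_nonneg_left (neg_le_neg (h s)) (pr_nn _))

theorem cont_ww (ϖ : A → ℝ) (hf : Continuous f) : Continuous (ww g ϖ f) :=
  (sm_wf ϖ).continuous.smul hf

theorem sm_ww (ϖ : A → ℝ) (hf : Sm X.I f) : Sm X.I (ww g ϖ f) := (sm_wf ϖ).smul hf

/-- the constant of comparison -/
def kk (ϖ : A → ℝ) : ℝ := exp (2 * ∑ s, |ϖ s|)

theorem one_le_kk (ϖ : A → ℝ) : 1 ≤ kk ϖ := one_le_exp (by positivity)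

theorem cmp (hg : g.OK) (hτ : 0 < τ) :
    g.n2 s f τ * exp (-(2 * ϖ s) * τ) ≤ kk ϖ * g.n2 s (ww g ϖ f) τ ∧
      g.n2 s (ww g ϖ f) τ ≤ kk ϖ * (g.n2 s f τ * exp (-(2 * ϖ s) * τ)) := by
  have h1 := abs_le.1 (((abs_mul (ϖ s) _).trans_le (mul_le_of_le_one_right (abs_nonneg _)
    (pr_bd hτ.le))).trans (Finset.single_le_sum (f := fun s => |ϖ s|) (fun _ _ => abs_nonneg _)
      (Finset.mem_univ s)))
  rw [ww_eq, Rinv39.n2_ew hg (rd_pr _) (neg_one_lt_zero.trans hτ), mul_comm (g.n2 s f τ),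
    ← mul_assoc, ← mul_assoc, kk, ← exp_add, ← exp_add]
  constructor <;> refine mul_le_mul_of_nonneg_right (exp_le_exp.2 ?_) (n2_nn _ _) <;>
    linarith [h1.1, h1.2]

theorem q0_ww : g.q0 (ww g ϖ f) = g.q0 f := by
  rw [ww_eq, Rinv39.q0_ew (rd_pr _), mul_zero, exp_zero, one_mul]

theorem aem (hf : Continuous f) : AEStronglyMeasurable (g.n2 s f) (volume.restrict (Ioi 0)) :=
  ((Rinv39.cont_n2 hf).mono (Ioi_subset_Ioi (by norm_num))).aestronglyMeasurable measurableSet_Ioi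

theorem fi_iff (hg : g.OK) (hf : Continuous f) : g.Fi ϖ f ↔ MemLp (ww g ϖ f) 2 g.F.μ := by
  rw [Rinv39.memLp_iff hg (cont_ww ϖ hf)]
  refine forall_congr' fun s => ⟨fun h => (h.const_mul (kk ϖ)).mono' (aem (cont_ww ϖ hf))
    ((ae_restrict_mem measurableSet_Ioi).mono fun τ hτ => ?_), fun h => (h.const_mul (kk ϖ)).mono'
    ((aem hf).mul (by fun_prop)) ((ae_restrict_mem measurableSet_Ioi).mono fun τ hτ => ?_)⟩
  · rw [Real.norm_of_nonneg (n2_nn _ _)]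
    exact (cmp hg hτ).2
  · rw [Real.norm_of_nonneg (mul_nonneg (n2_nn _ _) (exp_pos _).le)]
    exact (cmp hg hτ).1

theorem Q_cmp (hg : g.OK) (hf : Continuous f) (h : g.Fi ϖ f) :
    g.Q ϖ f ≤ kk ϖ * g.F.nrm 0 (ww g ϖ f) ^ 2 ∧ g.F.nrm 0 (ww g ϖ f) ^ 2 ≤ kk ϖ * g.Q ϖ f := by
  have hL := (fi_iff hg hf).1 h
  have h1 := (Rinv39.memLp_iff hg (cont_ww ϖ hf)).1 hL
  have q : g.q0 f ≤ kk ϖ * g.q0 f :=
    le_mul_of_one_le_left (integral_nonneg fun _ => sq_nonneg _) (one_le_kk ϖ)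
  rw [Rinv39.nrm_sq_eq hg (cont_ww ϖ hf) hL, q0_ww, Gm.Q, mul_add, mul_add, Finset.mul_sum,
    Finset.mul_sum]
  constructor <;> refine add_le_add q (Finset.sum_le_sum fun s _ => ?_) <;>
    rw [← integral_const_mul]
  · exact setIntegral_mono_on (h s) ((h1 s).const_mul _) measurableSet_Ioi fun τ hτ => (cmp hg hτ).1
  · exact setIntegral_mono_on (h1 s) ((h s).const_mul _) measurableSet_Ioi fun τ hτ => (cmp hg hτ).2

theorem fi_mono (hg : g.OK) (hf : Continuous f) (h : ϖ' ≤ ϖ) (hi : g.Fi ϖ' f) : g.Fi ϖ f :=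
  (fi_iff hg hf).2 (((fi_iff hg hf).1 hi).of_le (cont_ww ϖ hf).aestronglyMeasurable
    (.of_forall fun x => by
      simp only [norm_smul, Real.norm_of_nonneg (wf_pos _ _).le]
      exact mul_le_mul_of_nonneg_right (wf_anti h x) (norm_nonneg _)))

variable (L l ϖ R) in
/-- the conjugated operator -/
abbrev op : Op X.M (Option κ) V W := adB (L.sh (Lop.wt g l ϖ)) R

variable (L l ϖ R) in
/-- the conjugated operator on Sobolev spaces -/
def oH : g.F.H 1 L.A.p →L[ℝ] g.F.H 0 L.A.q := (op L l ϖ R).H g.F 0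

theorem op_app (hu : Sm X.I u) : (op L l ϖ R).app g.F (ww g ϖ u) =
    ww g ϖ fun x => (L.sh l).app g.F u x + R x (u x) := funext fun y => by
  rw [adB_app]
  refine (congrArg (· + _) (conj_app hu y)).trans ?_
  simp only [ww, map_smul, smul_add]

theorem good_op (hL : L.OK) (hR : L.Zer R) : ∃ C, (op L l ϖ R).Good g.F C :=
  good_adB (good_sh hL _).choose_spec hR.1 hR.2

theorem zer0 (L : Lop g V W) : L.Zer 0 := ⟨Cb_const 0, fun x v => by simp⟩

theorem op_zero : oH L l ϖ 0 = L.T (Lop.wt g l ϖ) := by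
  have e : (op L l ϖ 0).B = (L.sh (Lop.wt g l ϖ)).B := funext fun x => add_zero _
  show g.F.opH 0 L.A.p L.A.q L.A.σ (op L l ϖ 0).B = g.F.opH 0 L.A.p L.A.q L.A.σ _
  rw [e]

variable (g) in
/-- the rows on `H 1` -/
def Ext (p : X.M → V →L[ℝ] V) (ℓ : (X.M → V) → Z) (Λ : g.F.H 1 p →L[ℝ] Z) : Prop :=
  ∀ ϖ h u, Sc p u → Is g.F.toPre 1 p h (ww g ϖ u) → Λ h = ℓ u

theorem sc_ww {p : X.M → V →L[ℝ] V} (ϖ : A → ℝ) (hu : Sc p u) : Sc p (ww g ϖ u) :=
  ⟨sm_ww ϖ hu.1, fun y => by rw [map_smul, hu.2]⟩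

theorem exists_ext (hg : g.OK) (hℓ : g.Row ℓ c) (p : X.M → V →L[ℝ] V) : ∃ Λ, Ext g p ℓ Λ := by
  obtain ⟨Λ, h⟩ := row_ext (F := g.F) (hg.cpt 0) hℓ.add hℓ.smul hℓ.bd p
  exact ⟨Λ, fun ϖ x u hu hx => (h x _ (sc_ww ϖ hu).1 (sc_ww ϖ hu).2 hx).trans
    (row_congr hℓ (sm_ww ϖ hu.1) hu.1 fun y hy => by simp only [ww, wf_cor hy, one_smul])⟩

theorem is_zero {k : ℕ} {p : X.M → V →L[ℝ] V} (hu : Continuous u)
    (h : Is g.F.toPre k p 0 (ww g ϖ u)) : u = 0 := by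
  have := FiniteDimensional.complete ℝ V
  have e := Rinv39.ae_cont (F := g.F) (cont_ww ϖ hu) continuous_const (h.symm.trans Is.zero)
  exact funext fun y => (smul_eq_zero.1 (congrFun e y)).resolve_left (wf_pos _ _).ne'

variable (hL : L.OK) (hR : L.Zer R)
include hL hR

/-- from functions to Sobolev spaces -/
theorem toH (hu : Sc L.A.p u) (hi : g.Fi ϖ u) {h : X.M → W}
    (e : ∀ x, (L.sh l).app g.F u x + R x (u x) = h x) (hh : MemLp (ww g ϖ h) 2 g.F.μ) :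
    ∃ x, Is g.F.toPre 1 L.A.p x (ww g ϖ u) ∧
      Is g.F.toPre 0 L.A.q (oH L l ϖ R x) (ww g ϖ h) := by
  obtain ⟨_, hT⟩ := hL.gm.tame
  obtain ⟨_, hG⟩ := good_op (l := l) (ϖ := ϖ) hL hR
  obtain rfl : _ = h := funext e
  rw [← op_app hu.1] at hh ⊢
  obtain ⟨x, hx⟩ := gr_of hT hG hL.cl (sc_ww ϖ hu).1 (sc_ww ϖ hu).2
    ((fi_iff hL.gm hu.1.continuous).1 hi) hh
  exact ⟨x, hx, Rinv39.is_app hG hx (sc_ww ϖ hu).1⟩

/-- from Sobolev spaces to functions -/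
theorem ofH {x : g.F.H 1 L.A.p} (h : Sec X.I L.A.q)
    (e : oH L l ϖ R x = g.F.toH 0 _ h) : ∃ u, Sc L.A.p u ∧ g.Fi ϖ u ∧
      (∀ y, (L.sh l).app g.F u y + R y (u y) = ww g (-ϖ) h.1 y) ∧
      Is g.F.toPre 1 L.A.p x (ww g ϖ u) := by
  have := FiniteDimensional.complete ℝ V
  have := FiniteDimensional.complete ℝ W
  obtain ⟨_, hT⟩ := hL.gm.tame
  obtain ⟨_, hG⟩ := good_op (l := l) (ϖ := ϖ) hL hR
  obtain ⟨v, ⟨_, h1, -⟩, -, h2, h3, h4⟩ := Rinv39.solve hT hG hL.cl.1 (x := x) h.2.1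
    (fun j => FL_sec j h) h.2.2.2 (show Is _ 0 _ (oH L l ϖ R x) _ from e ▸ Is.toH h)
  have s : Sc L.A.p (ww g (-ϖ) v) := sc_ww _ ⟨h1, h2⟩
  refine ⟨_, s, (fi_iff hL.gm s.1.continuous).2 ?_, fun y => ?_, ?_⟩
  · rw [ww_neg]; exact h3.memLp
  · have k := congrFun (op_app (L := L) (l := l) (ϖ := ϖ) (R := R) s.1) y
    rw [ww_neg, h4] at k
    simp only [ww] at k ⊢
    rw [k, smul_smul, mul_comm, wf_neg, one_smul]
  · rw [ww_neg]; exact h3

theorem kr_of {Λ : g.F.H 1 L.A.p →L[ℝ] Z} (hΛ : Ext g _ ℓ Λ) {x : g.F.H 1 L.A.p}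
    (h : (oH L l ϖ R).prod Λ x = 0) :
    ∃ u, L.Kr l ϖ R ℓ u ∧ Is g.F.toPre 1 L.A.p x (ww g ϖ u) := by
  obtain ⟨u, h1, h2, h3, h4⟩ := ofH hL hR 0 ((congrArg Prod.fst h).trans (map_zero _).symm)
  exact ⟨u, ⟨h1, h2, fun y => (h3 y).trans (smul_zero _),
    (hΛ _ _ _ h1 h4).symm.trans (congrArg Prod.snd h)⟩, h4⟩

omit hR

theorem inj_of {Λ : g.F.H 1 L.A.p →L[ℝ] Z} (hΛ : Ext g _ ℓ Λ)
    (h0 : ∀ u, L.Kr l ϖ 0 ℓ u → u = 0) (x : g.F.H 1 L.A.p)
    (h : (oH L l ϖ 0).prod Λ x = 0) : x = 0 := by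
  have := FiniteDimensional.complete ℝ V
  obtain ⟨u, h1, h2⟩ := kr_of hL (zer0 L) hΛ h
  obtain rfl := h0 u h1
  exact h2.unique (Is.zero.congr (.of_forall fun y => (smul_zero _).symm))

theorem fr_op (hF : L.Fre) (ho : L.Off (Lop.wt g l ϖ)) :
    Fr (oH L l ϖ 0) (L.ix (Lop.wt g l ϖ)) := op_zero (L := L) ▸ .of (hF.fr _ ho)

theorem est (hF : L.Fre) (ho : L.Off (Lop.wt g l ϖ)) (hℓ : g.Row ℓ c)
    (h0 : ∀ u, L.Kr l ϖ 0 ℓ u → u = 0) : ∃ C', ∀ u, Sc L.A.p u → g.Fi ϖ u →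
      g.Fi ϖ ((L.sh l).app g.F u) → g.Q ϖ u ≤ C' * (g.Q ϖ ((L.sh l).app g.F u) + ‖ℓ u‖ ^ 2) := by
  have := FiniteDimensional.complete ℝ V
  have := FiniteDimensional.complete ℝ W
  have := FiniteDimensional.complete ℝ Z
  obtain ⟨Λ, hΛ⟩ := exists_ext hL.gm hℓ L.A.p
  obtain ⟨C, hC, h1⟩ := bd_of_inj ((fr_op hL hF ho).prod Λ).1 (inj_of hL hΛ h0)
  refine ⟨kk ϖ * C ^ 2 * kk ϖ, fun u hu hi hi' => ?_⟩
  have s := sm_app (good_sh hL l).choose_spec hu.1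
  obtain ⟨x, x1, x2⟩ := toH hL (zer0 L) (l := l) hu hi (fun x => add_zero _)
    ((fi_iff hL.gm s.continuous).1 hi')
  have k := one_le_kk ϖ
  have a1 := (Q_cmp hL.gm hu.1.continuous hi).1
  have a2 := (Q_cmp hL.gm s.continuous hi').2
  rw [← x1.norm_zero] at a1
  rw [← x2.norm (sm_ww ϖ s)] at a2
  have a3 := pow_le_pow_left₀ (norm_nonneg _) ((norm_incl_le zero_le_one x).trans (h1 x)) 2
  have a4 : ‖(oH L l ϖ 0).prod Λ x‖ ^ 2 ≤
      kk ϖ * (g.Q ϖ ((L.sh l).app g.F u) + ‖ℓ u‖ ^ 2) := by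
    rw [ContinuousLinearMap.prod_apply, Prod.norm_mk, hΛ _ _ _ hu x1]
    rcases le_total ‖oH L l ϖ 0 x‖ ‖ℓ u‖ with h | h
    · rw [max_eq_right h]
      nlinarith [sq_nonneg ‖oH L l ϖ 0 x‖, sq_nonneg ‖ℓ u‖]
    · rw [max_eq_left h]
      nlinarith [sq_nonneg ‖ℓ u‖]
  rw [mul_pow] at a3
  refine a1.trans ?_
  rw [mul_assoc, mul_assoc]
  exact mul_le_mul_of_nonneg_left (a3.trans (mul_le_mul_of_nonneg_left a4 (sq_nonneg _)))
    (by linarith)

theorem ex (hF : L.Fre) (ho : L.Off (Lop.wt g l ϖ))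
    (hn : (finrank ℝ Z : ℤ) < L.ix (Lop.wt g l ϖ)) : ∃ δ > 0, ∀ R (ℓ : (X.M → V) → Z) C,
      L.Zer R → (∀ x, ‖R x‖ ≤ δ) → g.Row ℓ C → ∃ u, L.Kr l ϖ R ℓ u ∧ u ≠ 0 := by
  have := FiniteDimensional.complete ℝ V
  have := FiniteDimensional.complete ℝ W
  have := FiniteDimensional.complete ℝ Z
  obtain ⟨ε, hε, h1⟩ := (Fr.of (hF.fr _ ho)).exists_ball
  have k := cK_nonneg (ι := Option κ) 0
  refine ⟨ε / (cK (Option κ) 0 + 1), by positivity, fun R ℓ C hR hδ hℓ => ?_⟩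
  obtain ⟨Λ, hΛ⟩ := exists_ext hL.gm hℓ L.A.p
  have h2 := h1 (oH L l ϖ R) (by
    rw [oH, adB_H (good_sh hL _).choose_spec hR.1 hR.2]
    refine lt_of_eq_of_lt (congrArg norm (add_sub_cancel_left _ _))
      (((ContinuousLinearMap.opNorm_comp_le _ _).trans (mul_le_mul (norm_mulH_le
        hR.1.choose_spec.1 (CB_zero.2 hδ) (Maps.of_left hR.2)) (rep_incl' zero_le_one).2
        (norm_nonneg _) (by positivity))).trans_lt ?_)
    rw [mul_one, abs_of_pos (by positivity), ← mul_div_assoc, div_lt_iff₀ (by positivity)]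
    linarith)
  obtain ⟨x, x1, x2⟩ := ex_ker (h2.prod Λ) (sub_pos.2 hn)
  obtain ⟨u, u1, u2⟩ := kr_of hL hR hΛ x1
  refine ⟨u, u1, fun e => x2 ?_⟩
  subst e
  exact u2.unique (Is.zero.congr (.of_forall fun y => (smul_zero _).symm))

theorem dim (hF : L.Fre) (ho : L.Off (Lop.wt g l ϖ)) (ho' : L.Off (Lop.wt g l ϖ')) (h : ϖ' ≤ ϖ)
    (hℓ : g.Row ℓ c) (hn : L.ix (Lop.wt g l ϖ') = finrank ℝ Z) (h0 : ∀ u, L.Kr l ϖ' 0 ℓ u → u = 0)
    (n : ℕ) (u : Fin n → X.M → V) (hu : ∀ i, L.Kr l ϖ 0 ℓ (u i)) (li : LinearIndependent ℝ u) :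
    (n : ℤ) ≤ L.ix (Lop.wt g l ϖ) - finrank ℝ Z := by
  have := FiniteDimensional.complete ℝ V
  have := FiniteDimensional.complete ℝ W
  have := FiniteDimensional.complete ℝ Z
  obtain ⟨Λ, hΛ⟩ := exists_ext hL.gm hℓ L.A.p
  have f := (fr_op hL hF ho).prod Λ
  have s' := (((fr_op hL hF ho').prod Λ).cast (sub_eq_zero.2 hn)).surj_of_inj
    ((injective_iff_map_eq_zero _).2 (inj_of hL hΛ h0))
  have s : Surjective ((oH L l ϖ 0).prod Λ) := fun ⟨y, z⟩ => by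
    induction y using H_ind with
    | hP => exact f.1.isClosed_range.preimage (by fun_prop : Continuous fun y => (y, z))
    | h t =>
      have t1 : Sc L.A.q (ww g ϖ' (ww g (-ϖ) t.1)) := sc_ww _ (sc_ww _ ⟨t.2.1, t.2.2.2⟩)
      obtain ⟨x, hx⟩ := s' (g.F.toH 0 _ ⟨_, t1.1, t.2.2.1.smul_left.smul_left, t1.2⟩, z)
      obtain ⟨v, v1, v2, v3, v4⟩ := ofH hL (zer0 L) _ (congrArg Prod.fst hx)
      obtain ⟨w, w1, w2⟩ := toH hL (zer0 L) v1 (fi_mono hL.gm v1.1.continuous h v2)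
        (h := ww g (-ϖ) t.1) (fun y => (v3 y).trans (by
          simp only [ww, smul_smul]
          rw [← mul_assoc, mul_comm (wf g (-ϖ') y), wf_neg, one_mul]))
        (by rw [ww_neg]; exact FL_sec 0 t)
      rw [ww_neg] at w2
      exact ⟨w, Prod.ext (w2.unique (Is.toH t)) ((hΛ _ _ _ v1 w1).trans
        ((hΛ _ _ _ v1 v4).symm.trans (congrArg Prod.snd hx)))⟩
  choose x x1 x2 using fun i => toH hL (zer0 L) (hu i).sc (hu i).fi (h := 0) (hu i).eq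
    (by rw [show ww g ϖ (0 : X.M → W) = 0 from funext fun _ => smul_zero _]; exact MemLp.zero)
  have := f.1.finite_ker
  let y : Fin n → ((oH L l ϖ 0).prod Λ).ker := fun i => ⟨x i, Prod.ext
    ((x2 i).unique (Is.zero.congr (.of_forall fun y => (smul_zero _).symm)))
    ((hΛ _ _ _ (hu i).sc (x1 i)).trans (hu i).row)⟩
  have li' : LinearIndependent ℝ y := Fintype.linearIndependent_iff.2 fun a ha => by
    refine Fintype.linearIndependent_iff.1 li a (is_zero (ϖ := ϖ) (g := g) (k := 1) (p := L.A.p)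
      ?_ ?_)
    · have := fun i => (hu i).sc.1.continuous
      rw [show ∑ i, a i • u i = fun y => ∑ i, a i • u i y from funext fun y => by simp]
      fun_prop
    · have e : ∑ i, a i • x i = 0 := by
        have := congrArg Subtype.val ha
        rwa [Submodule.coe_sum] at this
      have k : ∀ S : Finset (Fin n), Is g.F.toPre 1 L.A.p (∑ i ∈ S, a i • x i)
          (∑ i ∈ S, a i • ww g ϖ (u i)) := fun S => by
        induction S using Finset.induction_on with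
        | empty => exact Is.zero
        | insert i S hi ih =>
          rw [Finset.sum_insert hi, Finset.sum_insert hi]
          exact ((x1 i).smul _).add ih
      refine (e ▸ k Finset.univ).congr (.of_forall fun y => ?_)
      simp [ww, Finset.smul_sum, smul_comm (a _)]
  rw [← f.finrank_ker s]
  simpa using li'.fintype_card_le_finrank

omit hL

variable (κ lam) in
/-- **RAD-WGT** -/
theorem wgtStmt : WgtStmt κ lam := fun _ _ _ _ _ _ _ _ _ _ _ _ _ hL hF =>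
  ⟨fun _ _ _ _ _ _ _ _ ho hℓ h0 => est hL hF ho hℓ h0, fun _ _ _ _ _ _ ho hn => ex hL hF ho hn,
    fun _ _ _ _ _ _ _ _ _ ho ho' h hℓ hn h0 => dim hL hF ho ho' h hℓ hn h0⟩

end Crest.Agent.X212.Wgt71
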